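import Vale.Agent.P224.PO.CoreW3
import Vale.Agent.P224.PO.M9.Num
import Vale.Agent.P224.S9.ZeroD
import Vale.Agent.P224.S9.ZeroE
import Vale.Agent.P224.S9.Z9F
import Vale.Agent.P224.SO.OneW
import Vale.Agent.P224.SO.Stab9C
import Vale.Agent.P224.SO.Stab9U
import Vale.Agent.P224.PO.R9b.Main
import Vale.Agent.P224.PO.R9s.Law

/-!
The sharp volume bound in dimension nine, with the case of equality.
-/

namespace Vale.Agent.P224.PO.M9

open MeasureTheory Set Filter Function Module Vale.Agent.P224 Vale.Agent.P224.UE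
  Vale.Agent.P224.S9
open scoped Topology RealInnerProductSpace ENNReal ContDiff Manifold

set_option linter.unusedSectionVars false

lemma gam_pos : 0 < gamD := by linarith [gamD_bd.1]

lemma rho_pos : 0 < rhoD := by linarith [rhoD_bd.1]

lemma kap_nonneg : 0 ≤ kapD := by
  unfold kapD
  norm_num

lemma sq_r : √(20 : ℝ) ^ 2 = 20 := Real.sq_sqrt (by norm_num)

lemma num1 : (((9 : ℕ) : ℝ) + 1) ^ 2 * gamD * (16 / 100000) ≤ 91 / 1250 * rhoD := by
  push_cast
  linarith [gamD_bd.2, rhoD_bd.1]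

lemma num2 : ((((9 : ℕ) : ℝ) + 1) ^ 2 * (101 / 100) * gamD) ^ 2 * (16 / 100000)
    ≤ (59 / 10 * rhoD) ^ 2 := by
  push_cast
  have h1 : (((9 : ℝ) + 1) ^ 2 * (101 / 100) * gamD) ^ 2
      ≤ (((9 : ℝ) + 1) ^ 2 * (101 / 100) * (5448 / 10000)) ^ 2 :=
    pow_le_pow_left₀ (by linarith [gam_pos]) (by linarith [gamD_bd.2]) 2
  have h2 : ((59 / 10 : ℝ) * (1209 / 10000)) ^ 2 ≤ (59 / 10 * rhoD) ^ 2 :=
    pow_le_pow_left₀ (by norm_num) (by linarith [rhoD_bd.1]) 2
  refine le_trans ?_ h2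
  refine le_trans (mul_le_mul_of_nonneg_right h1 (by norm_num)) ?_
  norm_num

lemma num3 : (((9 : ℕ) : ℝ) + 1) ^ 2 * gamD * (33 / 100000) ≤ 150 / 1000 * rhoD := by
  push_cast
  linarith [gamD_bd.2, rhoD_bd.1]

section

variable {V W M : Type*} [NormedAddCommGroup V] [InnerProductSpace ℝ V] [FiniteDimensional ℝ V]
  [NormedAddCommGroup W] [InnerProductSpace ℝ W] [FiniteDimensional ℝ W]
  [TopologicalSpace M] [ChartedSpace V M]
  [MeasurableSpace V] [BorelSpace V] [MeasurableSpace M] [BorelSpace M]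
  [IsManifold 𝓘(ℝ, V) ∞ M] [CompactSpace M] [T2Space M] [ConnectedSpace M]
  [MeasurableSpace W] [BorelSpace W]

/-- **Dimension nine**: at most the Clifford volume forces equality and linearity. -/
theorem core (hV : finrank ℝ V = 9) (hW : finrank ℝ W = finrank ℝ V + 2)
    {F : M → W} (hF : SphImm V F) (hmin : ∀ x n, IsUnitNormal V F x n → meanCurv V F x n = 0)
    (hng : ¬ ∃ a : W, a ≠ 0 ∧ ∀ x, ⟪F x, a⟫ = 0)
    (hle : (volM V F).real univ ≤ 12800 / 6561 * √(5 / 9) * sphereVol 9) :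
    (volM V F).real univ = 12800 / 6561 * √(5 / 9) * sphereVol 9 ∧ Injective F ∧
      ∃ (N : M → W) (b : OrthonormalBasis (Fin (9 + 2)) ℝ W) (S : Finset (Fin (9 + 2))),
        ContMDiff 𝓘(ℝ, V) 𝓘(ℝ, W) ∞ N ∧ (∀ x, IsUnitNormal V F x (N x)) ∧ S.card = 6 ∧
        ∀ x, N x = ∑ i, ((if i ∈ S then √20 / 5 else -(1 / (√20 / 5))) * ⟪F x, b i⟫) • b i := by
  have hfin : IsFiniteMeasure (volM V F) := isFiniteMeasure_volM hF
  have hne : Nonempty M := inferInstance
  have hΘ : 9999 / 10000 * (12800 / 6561 * √(5 / 9)) * sphereVol 9 ≤ (volM V F).real univ := by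
    have h := R9b.main hV hW hF hmin hng
    rw [least_eq] at h
    have h2 := (ENNReal.ofReal_le_iff_le_toReal (measure_ne_top _ _)).1 h
    have e : (volM V F).real univ = ((volM V F) univ).toReal := rfl
    rw [e]
    linarith
  have hr0 : (0 : ℝ) < √20 := by positivity
  have ha2 : (√(20 : ℝ) / 5) ^ 2 = 4 / 5 := by
    rw [div_pow, sq_r]
    norm_num
  have hlr : ∀ Θ : ℝ, 9999 / 10000 * (12800 / 6561 * √(5 / 9)) ≤ Θ → 14539 / 10000 ≤ Θ := by
    intro Θ h
    linarith [a_ge]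
  refine core_KW3s (m := 9) (h := 4) (C := 12800 / 6561 * √(5 / 9))
    (Θ1 := 9999 / 10000 * (12800 / 6561 * √(5 / 9)))
    (α := √20 / 5) (r := √20) (w := 4 / 5) (kr := √20 / 20) (w0 := 2)
    (T0 := 38 / 9) (k0 := -(77 / 18))
    (k1 := 48) (B := 80) (c := 14) (q := 8) (g1 := 11) (g' := 81 / 4)
    (a2 := 23 / 25) (b2 := 8 / 5) (c2 := 2 / 25) (a1 := 7 / 8) (c1 := 1 / 8)
    (cc := (7 / 20) * √20) (cd := 6) (lamu := 9 / 2) (lamv := 9 / 100)
    (lams := 49 / 10) (t1 := 91 / 1250) (t1' := 150 / 1000) (κ1 := 59 / 10)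
    (t2 := 22 / 1000) (t2' := 19 / 500) (κ2 := 4) (Z := 1 / 25)
    (l := Z9.lT) (Ro := RoT (√20) ll kapD Z9.sT)
    (R0 := R00 (√20) ll kapD) (c0 := √9) (ρ := rhoD) (κ := kapD) (γ := gamD)
    (lu := 111 / 1000) (lv := 11 / 1000) (cs := 1603 / 1024) (ρ2 := 64424511 / 536870912)
    (κs := 0) (lus := 65970739959 / 549755813888)
    (b0 := 1) (b1 := 578482826495 / 1099511627776) (b2' := -(112903306201 / 34359738368)) (b3 :=
    74255221709 / 34359738368) (b4 := -(453626061139 / 549755813888)) (b5 := 266060857135 /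
    1099511627776) (b6 := 0) (b7 := 468692938029 / 1099511627776) (b8 := 0)
    (l2 := rlH 123145302310912 R9s.rows)
    (u0 := 16 / 100000) (u1 := 33 / 100000)
    (gs0 := 3007 / 50000000 - 97 / 800 * (16 / 100000) + 12099 / 50000 * (16 / 100000) ^ 2)
    (gs1 := 3007 / 50000000 - 97 / 800 * (33 / 100000) + 12099 / 50000 * (33 / 100000) ^ 2)
    (K := 101 / 100)
    (by norm_num) (by norm_num) hV hW hF hmin hng a_lt_two ?_ hΘ (by norm_num) (by positivity)
    (by rw [ha2]) hr0 (by push_cast; ring) ?_ (by push_cast; norm_num)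
    (by push_cast; norm_num) (by push_cast; norm_num) ?_ (by push_cast; norm_num)
    (by norm_num) (by norm_num) (by push_cast; norm_num) (by norm_num) (by push_cast; norm_num)
    ?_ (by norm_num) (by norm_num)
    (fun d x h h1 h0 hv hS => SO.C9.cls_T h h1 h0 hv hS)
    (fun d x h h1 h0 _ hc hS => SO.S9.nearTg le_rfl le_rfl h h1 h0 hc (by norm_num) le_rfl hS)
    (by norm_num) (by norm_num)
    (fun d x h h1 h0 hv hS => SO.C9.cls_S h h1 h0 hv hS)
    (fun d x h h1 h0 _ hc hS => SO.S9.nearSg le_rfl h h1 h0 hc (by norm_num) le_rfl hS)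
    Z9.reg_lT Z9.ok_lT Z9.w_lT
    (fun N hN T hT => null_RoT hN _ _ _ _ ⟨hT.1.le, hT.2⟩)
    (fun N hN => null_R00 hN _ _ _) Z9.hposR_lT (by positivity) rho_pos
    kap_nonneg gam_pos ?_ ?_ ?_ ?_
    (Z9.flux_lT.trans flux_eq) ?_ (by norm_num) (by norm_num)
    (by push_cast; norm_num) (by push_cast; norm_num) R9s.rows_ok
    (fun e x N y w he hx hN hy hw hxN hyw hs => R9s.hpos_s e x N y w he hx hN hy hw hxN hyw hs)
    (by norm_num) (by norm_num)
    (fun Θ u r h1 h2 hu hT hr1 hr2 => R9s.hlaw_g (hlr Θ h1)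
      (h2.trans (a_le.trans (by norm_num))) (by norm_num) (by norm_num) hu hT hr1 hr2)
    (fun Θ u r h1 h2 hu hT hr1 hr2 => R9s.hlaw_g (hlr Θ h1)
      (h2.trans (a_le.trans (by norm_num))) (by norm_num) (by norm_num) hu hT hr1 hr2)
    (by norm_num)
    (fun N hN b S hS => SO.One9W.one_dev hN (sp_of_hng hng) (by positivity) ha2 b S hS)
    num1 num2 num3 (by push_cast; norm_num) (by push_cast; norm_num) (by push_cast; norm_num)
    (by push_cast; norm_num) hle
  · linarith [a_ge]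
  · -- kr
    have h1 := sq_r
    field_simp
    linarith
  · -- g'
    rw [sq_r]
    push_cast
    norm_num
  · -- cc
    push_cast
    nlinarith [sq_r]
  · push_cast
    linarith [rhoD_bd.2]
  · linarith [rhoD_bd.2]
  · rw [sq_r]
    push_cast
    linarith [rhoD_bd.1]
  · intro x N y w hx hN hy hw hxN hyw
    exact Z9.h0_lT x N y w hx hN hy hw hxN hyw
  · -- cs
    have h1 : (447213 / 100000 : ℝ) ≤ √20 := Real.le_sqrt_of_sq_le (by norm_num)
    push_cast
    linarith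

end

end Vale.Agent.P224.PO.M9
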