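import Vale.Agent.P224.POS.Psd

/-!
Certificate data: Gram matrices 8,9,10,11,12,13 and their positive semidefiniteness.
-/

namespace Vale.Agent.P224.PO.M9

open Vale.Agent.P224.POS

noncomputable section

/-- Gram matrix of block 8 ((u1-E)*sca00), rows of the lower triangle -/
def G8 : List (List Int) := rowsZ 262144 [
  131788,
  36880644568,
  16450379316328588,
  4644834195342347079076] 0

/-- witness of block 8 -/
def W8 : List (List Nat) := rowsN 4096 [
  2133,
  9410264,
  55591306906,
  171538686089872] 0

set_option maxRecDepth 100000 in
theorem psd8 : psdChk 2048 16 840 W8 G8 = true := by decide +kernel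

/-- Gram matrix of block 9 ((u1-E)*sca10), rows of the lower triangle -/
def G9 : List (List Int) := rowsZ 524288 [
  268160,
  213064586068,
  124919966991677348] 0

/-- witness of block 9 -/
def W9 : List (List Nat) := rowsN 4096 [
  2349,
  9773625,
  41160834653] 0

set_option maxRecDepth 100000 in
theorem psd9 : psdChk 2048 16 1428 W9 G9 = true := by decide +kernel

/-- Gram matrix of block 10 ((u1-E)*sca11), rows of the lower triangle -/
def G10 : List (List Int) := rowsZ 67108864 [
  33572656,
  2977871316008336,
  243034467325032098411468] 0

/-- witness of block 10 -/
def W10 : List (List Nat) := rowsN 8192 [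
  4220,
  43754524,
  310262390759] 0

set_option maxRecDepth 100000 in
theorem psd10 : psdChk 4096 1 712 W10 G10 = true := by decide +kernel

/-- Gram matrix of block 11 (r(u1-E)*sca00), rows of the lower triangle -/
def G11 : List (List Int) := rowsZ 131072 [
  67228,
  11959069416,
  1721291173335592,
  179532519817602990500] 0

/-- witness of block 11 -/
def W11 : List (List Nat) := rowsN 1024 [
  583,
  621776,
  796305157,
  760613421592] 0

set_option maxRecDepth 100000 in
theorem psd11 : psdChk 512 4 341 W11 G11 = true := by decide +kernel

/-- Gram matrix of block 12 (r(u1-E)*sca10), rows of the lower triangle -/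
def G12 : List (List Int) := rowsZ 1048576 [
  535812,
  796586884796,
  886277028759258540] 0

/-- witness of block 12 -/
def W12 : List (List Nat) := rowsN 4096 [
  2468,
  10260644,
  40991879047] 0

set_option maxRecDepth 100000 in
theorem psd12 : psdChk 2048 16 1962 W12 G12 = true := by decide +kernel

/-- Gram matrix of block 13 (r(u1-E)*sca11), rows of the lower triangle -/
def G13 : List (List Int) := rowsZ 67108864 [
  33703524,
  3058397925996600,
  243760735770802100221308] 0

/-- witness of block 13 -/
def W13 : List (List Nat) := rowsN 16384 [
  8537,
  181606544,
  2327402243891] 0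

set_option maxRecDepth 100000 in
theorem psd13 : psdChk 8192 1 7487 W13 G13 = true := by decide +kernel

end

end Vale.Agent.P224.PO.M9
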