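import Vale.Agent.P224.PO.LawO
import Vale.Agent.P224.PO.LawNumO

/-!
The numerical law of the certificate in dimension 9.
-/

namespace Vale.Agent.P224.PO.M9

open Vale.Agent.P224 Vale.Agent.P224.UE Vale.Agent.P224.POS Vale.Agent.P224.PO

lemma KH_9 : KH 9 = (65536 / 35) / Real.pi := by
  have := KH_rec (m := 7) (by norm_num)
  rw [KH_seven] at this
  norm_num at this
  rw [this]
  have := Real.pi_pos
  field_simp
  try norm_num

/-- the ratio of the least Clifford volume in dimension 9 -/
lemma clifford_le : leastClifford 9 ≤ 363533 / 250000 * sphereVol 9 :=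
  odd_le (k := 4) (by norm_num) (by norm_num) (by norm_num)

/-- The numerical law in dimension 9. -/
theorem law_neg {Θ u r H : ℝ} (h1 : 6 / 5 ≤ Θ) (h2 : Θ ≤ 71616001 / 50000000) (hu : 0 ≤ u)
    (hT : Θ ^ 2 * u ≤ 1) (hr1 : u ^ 2 ≤ r) (hr2 : r ≤ u)
    (hH : H = -(10095 / 4194304) + (5922979 / 2684354560) * u + (-(266069 / 2684354560)) * r) :
    Θ * (1 + (-(265901021 / 268435456)) * u + (10933955 / 268435456) * r + (19876871 / 134217728) * u ^ 2) + KH 9 * H < 0 := by
  have hb := div_pi_bounds (N := 65536 / 35) (by norm_num)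
  have hK : KH 9 = (65536 / 35) / Real.pi := by
    have h0 := KH_9
    have := Real.pi_pos
    rw [h0]
    try field_simp
  rw [← hK] at hb
  rw [hH]
  exact law_two (Tm := 71616001 / 50000000) hb.1 hb.2 (by norm_num) (by norm_num) (by norm_num) (by norm_num)
    (by norm_num) (by norm_num) (by norm_num)
    (fun T hT1 hT2 => quintic_neg (by norm_num) (by norm_num) (by norm_num) (by norm_num)
      (by norm_num) (by norm_num) (by norm_num) (le_of_eq rfl) (le_of_eq rfl) (le_of_eq rfl)
      (le_of_eq rfl) (le_of_eq rfl) (le_of_eq rfl) hT1 hT2)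
    (fun T hT1 hT2 => quintic_neg (by norm_num) (by norm_num) (by norm_num) (by norm_num)
      (by norm_num) (by norm_num) (by norm_num) (le_of_eq rfl) (le_of_eq rfl) (le_of_eq rfl)
      (le_of_eq rfl) (le_of_eq rfl) (le_of_eq rfl) hT1 hT2)
    (fun T hT1 hT2 => quintic_neg (by norm_num) (by norm_num) (by norm_num) (by norm_num)
      (by norm_num) (by norm_num) (by norm_num) (le_of_eq rfl) (le_of_eq rfl) (le_of_eq rfl)
      (le_of_eq rfl) (le_of_eq rfl) (le_of_eq rfl) hT1 hT2)
    (fun T hT1 hT2 => quintic_neg (by norm_num) (by norm_num) (by norm_num) (by norm_num)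
      (by norm_num) (by norm_num) (by norm_num) (le_of_eq rfl) (le_of_eq rfl) (le_of_eq rfl)
      (le_of_eq rfl) (le_of_eq rfl) (le_of_eq rfl) hT1 hT2)
    h1 h2 hu hT hr1 hr2

end Vale.Agent.P224.PO.M9
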