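import Vale.Agent.P224.PO.RowsO

/-!
Certificate data in dimension 9: value terms and rows.
-/

namespace Vale.Agent.P224.PO.M9

open Vale.Agent.P224.UE Vale.Agent.P224.POS Vale.Agent.P224.PO

noncomputable section

/-- the rows: integer coefficient and term (family, e, i, j, d, k, l) -/
def rows : List (Int × HTerm) := [
  (-5461520, ⟨0, -9, 0, 0, 0, 0, 0⟩),
  (-47435632, ⟨0, -7, 0, 0, 0, 0, 0⟩),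
  (107944432, ⟨0, -6, 0, 0, 0, 0, 0⟩),
  (-395534928, ⟨0, -5, 0, 0, 0, 0, 0⟩),
  (499829536, ⟨0, -4, 0, 0, 0, 0, 0⟩),
  (-600547440, ⟨0, -3, 0, 0, 0, 0, 0⟩),
  (43520192, ⟨0, -2, 0, 0, 0, 0, 0⟩),
  (-79647008, ⟨0, -1, 0, 0, 0, 0, 0⟩),
  (26246096, ⟨0, 0, 0, 0, 0, 0, 0⟩),
  (33983600, ⟨0, -9, 2, 0, 0, 0, 0⟩),
  (-200030560, ⟨0, -8, 2, 0, 0, 0, 0⟩),
  (696903776, ⟨0, -7, 2, 0, 0, 0, 0⟩),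
  (-1314375456, ⟨0, -6, 2, 0, 0, 0, 0⟩),
  (1478725024, ⟨0, -5, 2, 0, 0, 0, 0⟩),
  (-856699312, ⟨0, -4, 2, 0, 0, 0, 0⟩),
  (216258992, ⟨0, -3, 2, 0, 0, 0, 0⟩),
  (-22384928, ⟨1, -7, 1, 0, 0, 0, 0⟩),
  (158414192, ⟨1, -6, 1, 0, 0, 0, 0⟩),
  (-606403024, ⟨1, -5, 1, 0, 0, 0, 0⟩),
  (1245641264, ⟨1, -4, 1, 0, 0, 0, 0⟩),
  (-1582683488, ⟨1, -3, 1, 0, 0, 0, 0⟩),
  (1053866688, ⟨1, -2, 1, 0, 0, 0, 0⟩),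
  (-355584512, ⟨1, -1, 1, 0, 0, 0, 0⟩),
  (4875760, ⟨3, -9, 0, 0, 0, 0, 0⟩),
  (-794288, ⟨3, -7, 0, 0, 0, 0, 0⟩),
  (106797568, ⟨3, -6, 0, 0, 0, 0, 0⟩),
  (-262818592, ⟨3, -5, 0, 0, 0, 0, 0⟩),
  (506218832, ⟨3, -4, 0, 0, 0, 0, 0⟩),
  (-406522880, ⟨3, -3, 0, 0, 0, 0, 0⟩),
  (320102080, ⟨3, -2, 0, 0, 0, 0, 0⟩),
  (-42198784, ⟨3, -1, 0, 0, 0, 0, 0⟩),
  (-35077424, ⟨3, -9, 2, 0, 0, 0, 0⟩),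
  (158097440, ⟨3, -8, 2, 0, 0, 0, 0⟩),
  (-336865872, ⟨3, -7, 2, 0, 0, 0, 0⟩),
  (335031168, ⟨3, -6, 2, 0, 0, 0, 0⟩),
  (-135719376, ⟨3, -5, 2, 0, 0, 0, 0⟩),
  (9009200, ⟨0, -9, 0, 0, 0, 1, 0⟩),
  (11898144, ⟨0, -8, 0, 0, 0, 1, 0⟩),
  (279348144, ⟨0, -7, 0, 0, 0, 1, 0⟩),
  (-476044064, ⟨0, -6, 0, 0, 0, 1, 0⟩),
  (1117994096, ⟨0, -5, 0, 0, 0, 1, 0⟩),
  (-529733392, ⟨0, -4, 0, 0, 0, 1, 0⟩),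
  (476034544, ⟨0, -3, 0, 0, 0, 1, 0⟩),
  (632808544, ⟨0, -2, 0, 0, 0, 1, 0⟩),
  (-85133936, ⟨0, -1, 0, 0, 0, 1, 0⟩),
  (-157754144, ⟨0, -9, 1, 0, 1, 0, 0⟩),
  (-96360896, ⟨0, -8, 1, 0, 1, 0, 0⟩),
  (1359535904, ⟨0, -7, 1, 0, 1, 0, 0⟩),
  (-8532639232, ⟨0, -6, 1, 0, 1, 0, 0⟩),
  (28362678080, ⟨0, -5, 1, 0, 1, 0, 0⟩),
  (-66212440944, ⟨0, -4, 1, 0, 1, 0, 0⟩),
  (88910965072, ⟨0, -3, 1, 0, 1, 0, 0⟩),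
  (-93899566944, ⟨0, -2, 1, 0, 1, 0, 0⟩),
  (-173237856, ⟨0, -9, 1, 1, 0, 0, 0⟩),
  (-608110032, ⟨0, -8, 1, 1, 0, 0, 0⟩),
  (1349794704, ⟨0, -7, 1, 1, 0, 0, 0⟩),
  (-2469885024, ⟨0, -6, 1, 1, 0, 0, 0⟩),
  (403408288, ⟨0, -3, 1, 1, 0, 0, 0⟩),
  (53662176, ⟨1, -7, 1, 0, 0, 1, 0⟩),
  (-341992688, ⟨1, -6, 1, 0, 0, 1, 0⟩),
  (938950000, ⟨1, -5, 1, 0, 0, 1, 0⟩),
  (-1095180800, ⟨1, -4, 1, 0, 0, 1, 0⟩),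
  (507745824, ⟨1, -3, 1, 0, 0, 1, 0⟩),
  (-11734864, ⟨1, -8, 0, 0, 1, 0, 0⟩),
  (-303479152, ⟨1, -7, 0, 0, 1, 0, 0⟩),
  (3155872768, ⟨1, -6, 0, 0, 1, 0, 0⟩),
  (-16258869792, ⟨1, -5, 0, 0, 1, 0, 0⟩),
  (35899936448, ⟨1, -4, 0, 0, 1, 0, 0⟩),
  (-23785462672, ⟨1, -3, 0, 0, 1, 0, 0⟩),
  (-43327822784, ⟨1, -2, 0, 0, 1, 0, 0⟩),
  (179085971088, ⟨1, -1, 0, 0, 1, 0, 0⟩),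
  (-187799133888, ⟨1, 0, 0, 0, 1, 0, 0⟩),
  (7794608, ⟨1, -9, 2, 0, 1, 0, 0⟩),
  (-70564912, ⟨1, -8, 2, 0, 1, 0, 0⟩),
  (267604256, ⟨1, -7, 2, 0, 1, 0, 0⟩),
  (-424430704, ⟨1, -6, 2, 0, 1, 0, 0⟩),
  (216233248, ⟨1, -5, 2, 0, 1, 0, 0⟩),
  (11734864, ⟨1, -8, 0, 1, 0, 0, 0⟩),
  (682519872, ⟨1, -7, 0, 1, 0, 0, 0⟩),
  (-1865806336, ⟨1, -6, 0, 1, 0, 0, 0⟩),
  (1327604352, ⟨1, -5, 0, 1, 0, 0, 0⟩),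
  (3109347056, ⟨1, -4, 0, 1, 0, 0, 0⟩),
  (-9021494160, ⟨1, -3, 0, 1, 0, 0, 0⟩),
  (4479849808, ⟨1, -2, 0, 1, 0, 0, 0⟩),
  (-8487712, ⟨1, -9, 2, 1, 0, 0, 0⟩),
  (85367376, ⟨1, -8, 2, 1, 0, 0, 0⟩),
  (-320412400, ⟨1, -7, 2, 1, 0, 0, 0⟩),
  (482628816, ⟨1, -6, 2, 1, 0, 0, 0⟩),
  (-224478496, ⟨1, -5, 2, 1, 0, 0, 0⟩),
  (-10179408, ⟨3, -9, 0, 0, 0, 1, 0⟩),
  (11898144, ⟨3, -8, 0, 0, 0, 1, 0⟩),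
  (192678512, ⟨3, -7, 0, 0, 0, 1, 0⟩),
  (-472608992, ⟨3, -6, 0, 0, 0, 1, 0⟩),
  (865188960, ⟨3, -5, 0, 0, 0, 1, 0⟩),
  (-532310256, ⟨3, -4, 0, 0, 0, 1, 0⟩),
  (142018848, ⟨3, -3, 0, 0, 0, 1, 0⟩),
  (126814704, ⟨3, -9, 1, 0, 1, 0, 0⟩),
  (559434048, ⟨3, -8, 1, 0, 1, 0, 0⟩),
  (-1555998400, ⟨3, -7, 1, 0, 1, 0, 0⟩),
  (2033370304, ⟨3, -6, 1, 0, 1, 0, 0⟩),
  (-766603840, ⟨3, -5, 1, 0, 1, 0, 0⟩),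
  (204548144, ⟨3, -9, 1, 1, 0, 0, 0⟩),
  (38212624, ⟨3, -8, 1, 1, 0, 0, 0⟩),
  (-1893273968, ⟨3, -7, 1, 1, 0, 0, 0⟩),
  (5734500976, ⟨3, -6, 1, 1, 0, 0, 0⟩),
  (-7110207360, ⟨3, -5, 1, 1, 0, 0, 0⟩),
  (5216642608, ⟨3, -4, 1, 1, 0, 0, 0⟩),
  (-163280, ⟨5, -8, 1, 0, 0, 0, 0⟩),
  (305047824, ⟨5, -7, 1, 0, 0, 0, 0⟩),
  (-963363760, ⟨5, -6, 1, 0, 0, 0, 0⟩),
  (1639123248, ⟨5, -5, 1, 0, 0, 0, 0⟩),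
  (-1392269552, ⟨5, -4, 1, 0, 0, 0, 0⟩),
  (337221200, ⟨5, -3, 1, 0, 0, 0, 0⟩),
  (-3279328, ⟨0, -9, 0, 0, 0, 0, 1⟩),
  (-20409424, ⟨0, -7, 0, 0, 0, 0, 1⟩),
  (-99751136, ⟨0, -6, 0, 0, 0, 0, 1⟩),
  (365237328, ⟨0, -5, 0, 0, 0, 0, 1⟩),
  (-600035072, ⟨0, -4, 0, 0, 0, 0, 1⟩),
  (-4058000, ⟨0, -9, 0, 0, 0, 2, 0⟩),
  (-15016608, ⟨0, -7, 0, 0, 0, 2, 0⟩),
  (117939136, ⟨0, -6, 0, 0, 0, 2, 0⟩),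
  (-510617536, ⟨0, -5, 0, 0, 0, 2, 0⟩),
  (699104896, ⟨0, -4, 0, 0, 0, 2, 0⟩),
  (-390085536, ⟨0, -3, 0, 0, 0, 2, 0⟩),
  (-156922064, ⟨0, -2, 0, 0, 0, 2, 0⟩),
  (-20094560, ⟨0, -9, 0, 0, 2, 0, 0⟩),
  (173143360, ⟨0, -8, 0, 0, 2, 0, 0⟩),
  (-1280054560, ⟨0, -7, 0, 0, 2, 0, 0⟩),
  (2716195120, ⟨0, -6, 0, 0, 2, 0, 0⟩),
  (-4282582128, ⟨0, -5, 0, 0, 2, 0, 0⟩),
  (3982700560, ⟨0, -4, 0, 0, 2, 0, 0⟩),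
  (-34146208, ⟨0, -3, 0, 0, 2, 0, 0⟩),
  (-3537743040, ⟨0, -2, 0, 0, 2, 0, 0⟩),
  (-91147463528, ⟨0, 0, 0, 0, 2, 0, 0⟩),
  (73860592, ⟨0, -9, 0, 1, 1, 0, 0⟩),
  (-553126528, ⟨0, -8, 0, 1, 1, 0, 0⟩),
  (1539065456, ⟨0, -7, 0, 1, 1, 0, 0⟩),
  (-2275640208, ⟨0, -6, 0, 1, 1, 0, 0⟩),
  (2600584080, ⟨0, -5, 0, 1, 1, 0, 0⟩),
  (-4991512544, ⟨0, -4, 0, 1, 1, 0, 0⟩),
  (8796477728, ⟨0, -3, 0, 1, 1, 0, 0⟩),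
  (-8354231296, ⟨0, -2, 0, 1, 1, 0, 0⟩),
  (-69554640, ⟨0, -9, 0, 2, 0, 0, 0⟩),
  (379983168, ⟨0, -8, 0, 2, 0, 0, 0⟩),
  (-495811888, ⟨0, -7, 0, 2, 0, 0, 0⟩),
  (74575197432, ⟨0, 0, 0, 2, 0, 0, 0⟩),
  (5891328, ⟨1, -7, 1, 0, 0, 2, 0⟩),
  (7833056, ⟨1, -6, 1, 0, 0, 2, 0⟩),
  (-31468672, ⟨1, -5, 1, 0, 0, 2, 0⟩),
  (-22966624, ⟨1, -4, 1, 0, 0, 2, 0⟩),
  (-71116816, ⟨1, -7, 0, 0, 1, 1, 0⟩),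
  (218215152, ⟨1, -6, 0, 0, 1, 1, 0⟩),
  (-780900032, ⟨1, -5, 0, 0, 1, 1, 0⟩),
  (1509458560, ⟨1, -4, 0, 0, 1, 1, 0⟩),
  (-701610368, ⟨1, -3, 0, 0, 1, 1, 0⟩),
  (-259279584, ⟨1, -2, 0, 0, 1, 1, 0⟩),
  (-16572266096, ⟨1, 0, 0, 0, 1, 1, 0⟩),
  (17690912, ⟨1, -9, 1, 0, 2, 0, 0⟩),
  (-126238192, ⟨1, -8, 1, 0, 2, 0, 0⟩),
  (-200347312, ⟨1, -7, 1, 0, 2, 0, 0⟩),
  (1026326112, ⟨1, -6, 1, 0, 2, 0, 0⟩),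
  (-774807936, ⟨1, -5, 1, 0, 2, 0, 0⟩),
  (-297331968, ⟨1, -4, 1, 0, 2, 0, 0⟩),
  (77122032, ⟨1, -7, 0, 1, 0, 1, 0⟩),
  (-399038688, ⟨1, -6, 0, 1, 0, 1, 0⟩),
  (769598336, ⟨1, -5, 0, 1, 0, 1, 0⟩),
  (-860495056, ⟨1, -4, 0, 1, 0, 1, 0⟩),
  (407409936, ⟨1, -3, 0, 1, 0, 1, 0⟩),
  (42682720, ⟨1, -2, 0, 1, 0, 1, 0⟩),
  (-17690912, ⟨1, -9, 1, 1, 1, 0, 0⟩),
  (39994304, ⟨1, -8, 1, 1, 1, 0, 0⟩),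
  (159323776, ⟨1, -7, 1, 1, 1, 0, 0⟩),
  (-892442096, ⟨1, -6, 1, 1, 1, 0, 0⟩),
  (1187477152, ⟨1, -5, 1, 1, 1, 0, 0⟩),
  (-231746080, ⟨1, -4, 1, 1, 1, 0, 0⟩),
  (86243888, ⟨1, -8, 1, 2, 0, 0, 0⟩),
  (37055392, ⟨1, -7, 1, 2, 0, 0, 0⟩),
  (-184170176, ⟨1, -6, 1, 2, 0, 0, 0⟩),
  (-62953328, ⟨1, -5, 1, 2, 0, 0, 0⟩),
  (34852304, ⟨1, -4, 1, 2, 0, 0, 0⟩),
  (45559824, ⟨2, -7, 0, 0, 1, 0, 0⟩),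
  (200470384, ⟨2, -6, 0, 0, 1, 0, 0⟩),
  (-1175512432, ⟨2, -5, 0, 0, 1, 0, 0⟩),
  (2918009680, ⟨2, -4, 0, 0, 1, 0, 0⟩),
  (-3808993824, ⟨2, -3, 0, 0, 1, 0, 0⟩),
  (-2083530816, ⟨2, -2, 0, 0, 1, 0, 0⟩),
  (17563683104, ⟨2, -1, 0, 0, 1, 0, 0⟩),
  (-11168160, ⟨2, -7, 0, 1, 0, 0, 0⟩),
  (-297633456, ⟨2, -6, 0, 1, 0, 0, 0⟩),
  (1685723584, ⟨2, -5, 0, 1, 0, 0, 0⟩),
  (-1802266272, ⟨2, -4, 0, 1, 0, 0, 0⟩),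
  (-4757747264, ⟨2, -3, 0, 1, 0, 0, 0⟩),
  (8407191184, ⟨2, -2, 0, 1, 0, 0, 0⟩),
  (-5876121760, ⟨2, 0, 0, 1, 0, 0, 0⟩),
  (3294064, ⟨3, -9, 0, 0, 0, 0, 1⟩),
  (-4132896, ⟨3, -7, 0, 0, 0, 0, 1⟩),
  (36604848, ⟨3, -6, 0, 0, 0, 0, 1⟩),
  (-493840, ⟨3, -9, 0, 0, 0, 2, 0⟩),
  (15081120, ⟨3, -7, 0, 0, 0, 2, 0⟩),
  (-26759232, ⟨3, -6, 0, 0, 0, 2, 0⟩),
  (27084624, ⟨3, -5, 0, 0, 0, 2, 0⟩),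
  (-22768800, ⟨3, -4, 0, 0, 0, 2, 0⟩),
  (-79604656, ⟨3, -9, 0, 0, 2, 0, 0⟩),
  (365546432, ⟨3, -8, 0, 0, 2, 0, 0⟩),
  (-1472017984, ⟨3, -7, 0, 0, 2, 0, 0⟩),
  (217843856, ⟨3, -6, 0, 0, 2, 0, 0⟩),
  (248201216, ⟨3, -5, 0, 0, 2, 0, 0⟩),
  (-145304768, ⟨3, -4, 0, 0, 2, 0, 0⟩),
  (-272366500, ⟨3, -2, 0, 0, 2, 0, 0⟩),
  (-22041452664, ⟨3, -1, 0, 0, 2, 0, 0⟩),
  (95200544, ⟨3, -9, 0, 1, 1, 0, 0⟩),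
  (-405516160, ⟨3, -8, 0, 1, 1, 0, 0⟩),
  (858247984, ⟨3, -7, 0, 1, 1, 0, 0⟩),
  (-677659296, ⟨3, -6, 0, 1, 1, 0, 0⟩),
  (-275613168, ⟨3, -5, 0, 1, 1, 0, 0⟩),
  (158907248, ⟨3, -4, 0, 1, 1, 0, 0⟩),
  (39969728, ⟨3, -8, 0, 2, 0, 0, 0⟩),
  (664298992, ⟨3, -7, 0, 2, 0, 0, 0⟩),
  (110483472, ⟨3, -3, 0, 2, 0, 0, 0⟩),
  (217893200, ⟨3, -2, 0, 2, 0, 0, 0⟩),
  (17843080728, ⟨3, -1, 0, 2, 0, 0, 0⟩),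
  (-83262864, ⟨5, -7, 0, 0, 1, 0, 0⟩),
  (16690208, ⟨5, -6, 0, 0, 1, 0, 0⟩),
  (-757223632, ⟨5, -5, 0, 0, 1, 0, 0⟩),
  (615796800, ⟨5, -4, 0, 0, 1, 0, 0⟩),
  (-4198371936, ⟨5, -1, 0, 0, 1, 0, 0⟩),
  (37851360, ⟨5, -7, 0, 1, 0, 0, 0⟩),
  (-111660816, ⟨5, -6, 0, 1, 0, 0, 0⟩),
  (-45519248, ⟨5, -5, 0, 1, 0, 0, 0⟩),
  (439247296, ⟨5, -4, 0, 1, 0, 0, 0⟩)]

/-- the polynomial of the certificate (`8 D rr ^ 11` times the pointwise expression) -/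
def P : PE := lhsH 9 11 4294967296 2226545280 (-12357083376) 5876121760 174943280 636059872 0 0 0 rows

set_option maxRecDepth 100000 in
lemma rows_ok_all : (rows.all fun x => x.2.ok 9) = true := by decide +kernel

set_option maxRecDepth 100000 in
lemma rows_e_all : (rows.all fun x => decide (0 ≤ ((11 : ℕ) : ℤ) + x.2.e - 2)) = true := by
  decide +kernel

lemma rows_e : ∀ x ∈ rows, 0 ≤ ((11 : ℕ) : ℤ) + x.2.e - 2 := fun x hx =>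
  of_decide_eq_true (List.all_eq_true.1 rows_e_all x hx)

/-- all rows are admissible -/
lemma rows_ok : ∀ cT ∈ rlH 4294967296 rows, cT.2.ok 9 = true := by
  intro cT hcT
  unfold rlH at hcT
  obtain ⟨x, hx, rfl⟩ := List.mem_map.1 hcT
  exact List.all_eq_true.1 rows_ok_all x hx

/-- the pointwise inequality from the positivity of the polynomial -/
theorem pos_of {d : R9} (hd : d 0 < 1) (h : 0 ≤ PE.ev (vh d) P) :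
    0 ≤ W9 (4294967296 / 4294967296) (2226545280 / 4294967296) (-12357083376 / 4294967296) (5876121760 / 4294967296) (174943280 / 4294967296) (636059872 / 4294967296) (0 / 4294967296) (0 / 4294967296) (0 / 4294967296) d
      + hsum 9 (rlH 4294967296 rows) d := by
  have h1 := nonneg_of_lhsH hd 9 (K := 11) (D := 4294967296) (by norm_num) 4294967296 2226545280 (-12357083376) 5876121760 174943280 636059872 0 0 0 rows_e h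
  push_cast at h1
  convert h1 using 2

end

end Vale.Agent.P224.PO.M9
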